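import Vale.Agent.P011.D4T.H63.Nei
import Vale.Agent.P011.D4.Defs4

/-!
Block D4I: the singular elements `v` with `v * J v ∈ E e₊`, stable under `I x = ι (star x)`, and
the stable neighbours of `e₊ l`.
-/

namespace Vale.Agent.P011.D4I

open Vale.Agent.P011.MPQ Vale.Agent.P011.D4 Vale.Agent.P011.D4.Oct Vale.Agent.P011.E6
open Vale.Agent.P011.D4T

section model

variable {k L E : Type} [Field k] [Field L] [Field E] [Algebra k E] [Algebra L E]
  [NeZero (2 : E)] {ρ σ ι : E ≃ₐ[k] E} {α : E} {a b c : kˣ} {q : Lˣ}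

omit [NeZero (2 : E)] in
theorem Nei.Jm_inP (hα : α * α = algebraMap k E a) (hσα : σ α = -α) {v : OctL E a b c}
    (h0 : v.fst.re = -(α * v.fst.imI))
    (h1 : v.fst.imJ = -(α * v.fst.imK)) (h2 : v.snd.re = -(α * v.snd.imI))
    (h3 : v.snd.imJ = α * v.snd.imK) : D4T.Nei.InP α (Jm ρ σ α q v) := by
  have h0' := Nei.al_ne hα
  have ha : ((up E a : Eˣ) : E) = α * α := hα.symm
  refine ⟨?_, ?_, ?_, ?_⟩ <;>
    simp only [Jm, mq, re_qmap,
      imI_qmap, imJ_qmap, imK_qmap, QuaternionAlgebra.re_star, QuaternionAlgebra.imI_star,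
      QuaternionAlgebra.imJ_star, QuaternionAlgebra.imK_star,
      QuaternionAlgebra.re_mul, QuaternionAlgebra.imI_mul, QuaternionAlgebra.imJ_mul,
      QuaternionAlgebra.imK_mul, neg_zero, zero_mul, mul_zero, add_zero, zero_add, sub_zero,
      map_neg, map_mul, hσα, ha, h0, h1, h2, h3] <;>
    field_simp <;> ring

/-- D1a' : the singular vectors, stable by `I`, whose plane is the standard plane. -/
theorem sing_epI (hρ3 : ∀ x, ρ (ρ (ρ x)) = x) (hρα : ρ α = α) (hσα : σ α = -α)
    (hα : α * α = algebraMap k E a)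
    (hfix : ∀ x : E, ρ x = x → ι x = x →
      ∃ p0 p1 : k, x = algebraMap k E p0 + algebraMap k E p1 * α)
    {v : OctL E a b c} (hv : Pt ρ v) {t : E} (ht : t ≠ 0)
    (h : tri ρ v (Jm ρ σ α q v) = t • ep α) {ν : E} (hI : invo ι v = ν • v) : ∃ (s : E) (w : Oct a b c), s ≠ 0 ∧ w ≠ 0 ∧
      dot w 1 = 0 ∧ dot w gi = 0 ∧ v = s • (ep α * oup E w) := by
  have h0 := Nei.al_ne hα
  have h2 : (2 : E) ≠ 0 := NeZero.ne 2
  have ha : ((up E a : Eˣ) : E) = α * α := hα.symm
  have hp := polar2 hρ3 v v (Jm ρ σ α q v)
  rw [hv.2, tri_zero_right, add_zero, h, tri_smul_right, Nei.tri_ep hρα hα] at hp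
  have hT : ρ (ρ t) ≠ 0 := by
    rw [ne_eq, map_eq_zero_iff ρ ρ.injective, map_eq_zero_iff ρ ρ.injective]
    exact ht
  set T := ρ (ρ t) with hTd
  set β := ρ (bil v (Jm ρ σ α q v)) with hβ
  have e0 := congrArg (fun z => z.fst.re) hp
  have e1 := congrArg (fun z => z.fst.imI) hp
  have e2 := congrArg (fun z => z.fst.imJ) hp
  have e3 := congrArg (fun z => z.fst.imK) hp
  have e4 := congrArg (fun z => z.snd.re) hp
  have e5 := congrArg (fun z => z.snd.imI) hp
  have e6 := congrArg (fun z => z.snd.imJ) hp
  have e7 := congrArg (fun z => z.snd.imK) hp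
  simp only [fst_smul, snd_smul, QuaternionAlgebra.re_smul, QuaternionAlgebra.imI_smul,
    QuaternionAlgebra.imJ_smul, QuaternionAlgebra.imK_smul, smul_eq_mul] at e0 e1 e2 e3 e4 e5 e6 e7
  field_simp at e0 e1 e2 e3 e4 e5 e6 e7
  by_cases hb : β = 0
  · exfalso
    rw [hb] at e0 e2 e4 e6
    have g0 : v.fst.re = -(α * v.fst.imI) := by
      have : ρ (v.fst.re + α * v.fst.imI) = 0 := by
        rw [map_add, map_mul, hρα]
        exact (mul_eq_zero.1 (by linear_combination e0 : T * (ρ v.fst.re + α * ρ v.fst.imI) = 0)).resolve_left hT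
      rw [map_eq_zero_iff ρ ρ.injective] at this
      linear_combination this
    have g1 : v.fst.imJ = -(α * v.fst.imK) := by
      have : ρ (v.fst.imJ + α * v.fst.imK) = 0 := by
        rw [map_add, map_mul, hρα]
        exact (mul_eq_zero.1 (by linear_combination -e2 : T * (ρ v.fst.imJ + α * ρ v.fst.imK) = 0)).resolve_left hT
      rw [map_eq_zero_iff ρ ρ.injective] at this
      linear_combination this
    have g2 : v.snd.re = -(α * v.snd.imI) := by
      have : ρ (v.snd.re + α * v.snd.imI) = 0 := by
        rw [map_add, map_mul, hρα]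
        exact (mul_eq_zero.1 (by linear_combination -e4 : T * (ρ v.snd.re + α * ρ v.snd.imI) = 0)).resolve_left hT
      rw [map_eq_zero_iff ρ ρ.injective] at this
      linear_combination this
    have g3 : v.snd.imJ = α * v.snd.imK := by
      have : ρ (v.snd.imJ - α * v.snd.imK) = 0 := by
        rw [map_sub, map_mul, hρα]
        exact (mul_eq_zero.1 (by linear_combination -e6 : T * (ρ v.snd.imJ - α * ρ v.snd.imK) = 0)).resolve_left hT
      rw [map_eq_zero_iff ρ ρ.injective] at this
      linear_combination this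
    have g4 := Nei.tri_inP hρα hα v (D4I.Nei.Jm_inP (L := L) (ρ := ρ) (q := q) hα hσα g0 g1 g2 g3)
    rw [h] at g4
    simp only [ep, fst_smul, QuaternionAlgebra.re_smul, QuaternionAlgebra.imI_smul,
      smul_eq_mul] at g4
    field_simp at g4
    apply ht
    rcases mul_eq_zero.1 (by linear_combination g4 : (2 : E) * t = 0) with g5 | g5
    · exact absurd g5 h2
    · exact g5
  · have hc : (2 : E) * β ≠ 0 := mul_ne_zero h2 hb
    have m0 : v.fst.re = -(α * v.fst.imI) := by
      have := (mul_eq_zero.1 (by linear_combination -e0 - e1 :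
        2 * β * (v.fst.re + α * v.fst.imI) = 0)).resolve_left hc
      linear_combination this
    have m1 : v.fst.imJ = α * v.fst.imK := by
      have := (mul_eq_zero.1 (by linear_combination -e2 + e3 :
        2 * β * (v.fst.imJ - α * v.fst.imK) = 0)).resolve_left hc
      linear_combination this
    have m2 : v.snd.re = α * v.snd.imI := by
      have := (mul_eq_zero.1 (by linear_combination -e4 + e5 :
        2 * β * (v.snd.re - α * v.snd.imI) = 0)).resolve_left hc
      linear_combination this
    have m3 : v.snd.imJ = -(α * v.snd.imK) := by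
      have := (mul_eq_zero.1 (by linear_combination -e6 - e7 :
        2 * β * (v.snd.imJ + α * v.snd.imK) = 0)).resolve_left hc
      linear_combination this
    have n0 := congrArg ρ m0
    have n1 := congrArg ρ m1
    have n2 := congrArg ρ m2
    have n3 := congrArg ρ m3
    rw [map_neg, map_mul, hρα] at n0
    rw [map_mul, hρα] at n1 n2
    rw [map_neg, map_mul, hρα] at n3
    have r0 : v.fst.re = 0 := by
      refine (mul_eq_zero.1 (?_ : 2 * β * v.fst.re = 0)).resolve_left hc
      linear_combination -e0 + T * n0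
    have r1 : v.fst.imI = 0 := by
      rw [r0] at m0
      exact (mul_eq_zero.1 (by linear_combination m0 : α * v.fst.imI = 0)).resolve_left h0
    set l : E := -β / T with hl
    have l1 : ρ v.fst.imJ = l * v.fst.imJ := by
      rw [hl]
      field_simp
      have := mul_left_cancel₀ h2 (by linear_combination -e2 + T * n1 :
        2 * (T * ρ v.fst.imJ) = 2 * (-(β * v.fst.imJ)))
      linear_combination this
    have l2 : ρ v.snd.re = l * v.snd.re := by
      rw [hl]
      field_simp
      have := mul_left_cancel₀ h2 (by linear_combination -e4 + T * n2 :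
        2 * (T * ρ v.snd.re) = 2 * (-(β * v.snd.re)))
      linear_combination this
    have l3 : ρ v.snd.imJ = l * v.snd.imJ := by
      rw [hl]
      field_simp
      have := mul_left_cancel₀ h2 (by linear_combination -e6 + T * n3 :
        2 * (T * ρ v.snd.imJ) = 2 * (-(β * v.snd.imJ)))
      linear_combination this
    have i1 : ι v.fst.imJ = -ν * v.fst.imJ := by
      have := congrArg (fun z => z.fst.imJ) hI
      change ι (-v.fst.imJ) = ν * v.fst.imJ at this
      rw [map_neg] at this
      linear_combination -this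
    have i2 : ι v.snd.re = -ν * v.snd.re := by
      have := congrArg (fun z => z.snd.re) hI
      change ι (-v.snd.re) = ν * v.snd.re at this
      rw [map_neg] at this
      linear_combination -this
    have i3 : ι v.snd.imJ = -ν * v.snd.imJ := by
      have := congrArg (fun z => z.snd.imJ) hI
      change ι (-v.snd.imJ) = ν * v.snd.imJ at this
      rw [map_neg] at this
      linear_combination -this
    obtain ⟨s, hs, hs', hsi⟩ : ∃ s : E, s ≠ 0 ∧ ρ s = l * s ∧ ι s = -ν * s := by
      by_contra hne
      push Not at hne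
      have k1 : v.fst.imJ = 0 := by
        by_contra h; exact hne _ h l1 i1
      have k2 : v.snd.re = 0 := by
        by_contra h; exact hne _ h l2 i2
      have k3 : v.snd.imJ = 0 := by
        by_contra h; exact hne _ h l3 i3
      apply hv.1
      rw [k1] at m1
      rw [k2] at m2
      rw [k3] at m3
      exact ext8 r0 r1 k1 ((mul_eq_zero.1 m1.symm).resolve_left h0) k2
        ((mul_eq_zero.1 m2.symm).resolve_left h0) k3
        ((mul_eq_zero.1 (by linear_combination m3 : α * v.snd.imK = 0)).resolve_left h0)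
    have hl0 : l ≠ 0 := by
      intro h
      rw [h, zero_mul, map_eq_zero_iff ρ ρ.injective] at hs'
      exact hs hs'
    have hν : -ν ≠ 0 := by
      intro h
      rw [h, zero_mul, map_eq_zero_iff ι ι.injective] at hsi
      exact hs hsi
    have key : ∀ X : E, ρ X = l * X → ι X = -ν * X → ∃ p0 p1 : k,
        X = s * (algebraMap k E p0 + algebraMap k E p1 * α) := by
      intro X hX hX'
      obtain ⟨p0, p1, hp⟩ := hfix (X / s) (by
        rw [map_div₀, hX, hs', mul_div_mul_left _ _ hl0]) (by
        rw [map_div₀, hX', hsi, mul_div_mul_left _ _ hν])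
      exact ⟨p0, p1, by rw [← hp]; field_simp⟩
    obtain ⟨p0, p1, hX⟩ := key _ l1 i1
    obtain ⟨u0, u1, hY⟩ := key _ l2 i2
    obtain ⟨w0, w1, hZ⟩ := key _ l3 i3
    have main : v = s • (ep α * oup E (⟨⟨0, 0, 2 * p0, 2 * p1⟩,
        ⟨2 * u0, 2 * u1, 2 * w0, -(2 * w1)⟩⟩ : Oct a b c)) := by
      have m1' : v.fst.imK = s * (algebraMap k E p0 + algebraMap k E p1 * α) / α := by
        rw [← hX, m1]; field_simp
      have m2' : v.snd.imI = s * (algebraMap k E u0 + algebraMap k E u1 * α) / α := by
        rw [← hY, m2]; field_simp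
      have m3' : v.snd.imK = -(s * (algebraMap k E w0 + algebraMap k E w1 * α)) / α := by
        rw [← hZ, m3]; field_simp
      apply ext8 <;>
        simp only [ep, oup, fst_smul, snd_smul, fst_mul, snd_mul, re_qup, imI_qup, imJ_qup,
          imK_qup, QuaternionAlgebra.re_smul, QuaternionAlgebra.imI_smul,
          QuaternionAlgebra.imJ_smul, QuaternionAlgebra.imK_smul, smul_eq_mul,
          QuaternionAlgebra.re_add, QuaternionAlgebra.imI_add, QuaternionAlgebra.imJ_add,
          QuaternionAlgebra.imK_add,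
          QuaternionAlgebra.re_mul, QuaternionAlgebra.imI_mul, QuaternionAlgebra.imJ_mul,
          QuaternionAlgebra.imK_mul, QuaternionAlgebra.re_star, QuaternionAlgebra.imI_star,
          QuaternionAlgebra.imJ_star, QuaternionAlgebra.imK_star,
          QuaternionAlgebra.re_zero, QuaternionAlgebra.imI_zero, QuaternionAlgebra.imJ_zero,
          QuaternionAlgebra.imK_zero, map_zero, map_mul, map_neg, map_ofNat, ha, mul_zero,
          zero_mul, add_zero, zero_add, neg_zero, sub_zero, r0, r1, hX, hY, hZ, m1', m2', m3'] <;>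
        field_simp <;> ring
    refine ⟨s, _, hs, ?_, ?_, ?_, main⟩
    · intro h
      rw [h, oup_zero, mul_zero, smul_zero] at main
      exact hv.1 main
    · simp [dot]
    · simp [dot, gi]

/-- D1a : the neighbours, stable by `I`, of a standard singular vector. -/
theorem nb_epI (hρα : ρ α = α) (hα : α * α = algebraMap k E a)
    (hfix : ∀ x : E, ρ x = x → ι x = x →
      ∃ p0 p1 : k, x = algebraMap k E p0 + algebraMap k E p1 * α)
    {v : OctL E a b c} (hv : Pt ρ v) {ν : E} (hI : invo ι v = ν • v)
    (h : Nb ρ (ep α * oup E (gl : Oct a b c)) v) :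
    ∃ (s t : E) (f : Oct a b c), dot f 1 = 0 ∧ dot f gi = 0 ∧ dot f gl = 0 ∧
      dot f (gi * gl) = 0 ∧ v = s • (ep α * oup E gl) + t • ((1 - ep α) * oup E f) := by
  have h0 := Nei.al_ne hα
  have h2 : (2 : E) ≠ 0 := NeZero.ne 2
  have ha : ((up E a : Eˣ) : E) = α * α := hα.symm
  have hc : ((up E c : Eˣ) : E) ≠ 0 := (up E c).ne_zero
  have hb : ((up E b : Eˣ) : E) ≠ 0 := (up E b).ne_zero
  have hep : (ep α * oup E (gl : Oct a b c) : OctL E a b c) =
      ⟨0, ⟨1 / 2, 1 / (2 * α), 0, 0⟩⟩ := by
    rw [oup_gl]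
    apply ext8 <;>
      simp only [ep, gl, fst_mul, snd_mul,
        QuaternionAlgebra.re_add, QuaternionAlgebra.imI_add, QuaternionAlgebra.imJ_add,
        QuaternionAlgebra.imK_add, QuaternionAlgebra.re_mul, QuaternionAlgebra.imI_mul,
        QuaternionAlgebra.imJ_mul, QuaternionAlgebra.imK_mul, QuaternionAlgebra.re_smul,
        QuaternionAlgebra.imI_smul, QuaternionAlgebra.imJ_smul, QuaternionAlgebra.imK_smul,
        QuaternionAlgebra.re_star, QuaternionAlgebra.imI_star,
        QuaternionAlgebra.imJ_star, QuaternionAlgebra.imK_star,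
        QuaternionAlgebra.re_zero, QuaternionAlgebra.imI_zero, QuaternionAlgebra.imJ_zero,
        QuaternionAlgebra.imK_zero, QuaternionAlgebra.re_one, QuaternionAlgebra.imI_one,
        QuaternionAlgebra.imJ_one, QuaternionAlgebra.imK_one, smul_eq_mul] <;> ring
  rw [hep] at h
  obtain ⟨f1, f2⟩ := h
  have a1 := congrArg (fun z => z.snd.re) f1
  have a2 := congrArg (fun z => z.snd.imJ) f1
  have a3 := congrArg (fun z => z.fst.re) f1
  have a4 := congrArg (fun z => z.fst.imJ) f1
  have a5 := congrArg (fun z => z.snd.re) f2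
  simp only [tri, fst_mul, snd_mul, Nei.o1, Nei.o2, fst_star, snd_star, re_qmap,
      imI_qmap, imJ_qmap, imK_qmap, QuaternionAlgebra.re_star, QuaternionAlgebra.imI_star,
      QuaternionAlgebra.imJ_star, QuaternionAlgebra.imK_star, QuaternionAlgebra.re_add,
      QuaternionAlgebra.imI_add, QuaternionAlgebra.imJ_add, QuaternionAlgebra.imK_add,
      QuaternionAlgebra.re_mul, QuaternionAlgebra.imI_mul, QuaternionAlgebra.imJ_mul,
      QuaternionAlgebra.imK_mul, QuaternionAlgebra.re_smul, QuaternionAlgebra.imI_smul,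
      QuaternionAlgebra.imJ_smul, QuaternionAlgebra.imK_smul, smul_eq_mul, neg_zero, qmap_zero,
      star_zero, zero_mul, mul_zero, add_zero, zero_add, sub_zero, map_neg, map_zero, map_one,
      map_div₀, map_mul, map_ofNat, hρα, ha, QuaternionAlgebra.re_neg, QuaternionAlgebra.imI_neg,
      QuaternionAlgebra.imJ_neg, QuaternionAlgebra.imK_neg, QuaternionAlgebra.re_zero,
      QuaternionAlgebra.imI_zero, QuaternionAlgebra.imJ_zero, QuaternionAlgebra.imK_zero,
      fst_zero, snd_zero] at a1 a2 a3 a4 a5
  field_simp at a1 a2 a3 a4 a5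
  rw [mul_zero] at a1 a2 a3 a4 a5
  have b1 : v.fst.re = -(α * v.fst.imI) := by
    have : ρ (ρ (v.fst.re + α * v.fst.imI)) = 0 := by
      rw [map_add, map_mul, hρα, map_add, map_mul, hρα]
      linear_combination -a1
    rw [map_eq_zero_iff ρ ρ.injective, map_eq_zero_iff ρ ρ.injective] at this
    linear_combination this
  have b2 : v.fst.imJ = -(α * v.fst.imK) := by
    have : ρ (ρ (v.fst.imJ + α * v.fst.imK)) = 0 := by
      rw [map_add, map_mul, hρα, map_add, map_mul, hρα]
      linear_combination -a2
    rw [map_eq_zero_iff ρ ρ.injective, map_eq_zero_iff ρ ρ.injective] at this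
    linear_combination this
  have b3 : v.snd.re = α * v.snd.imI := by
    have : ρ (ρ (v.snd.re - α * v.snd.imI)) = 0 := by
      rw [map_sub, map_mul, hρα, map_sub, map_mul, hρα]
      have := (mul_eq_zero.1 a3).resolve_left hc
      linear_combination this
    rw [map_eq_zero_iff ρ ρ.injective, map_eq_zero_iff ρ ρ.injective] at this
    linear_combination this
  have b4 : v.snd.imJ = α * v.snd.imK := by
    have : ρ (ρ (v.snd.imJ - α * v.snd.imK)) = 0 := by
      rw [map_sub, map_mul, hρα, map_sub, map_mul, hρα]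
      have := (mul_eq_zero.1 a4).resolve_left hc
      linear_combination -this
    rw [map_eq_zero_iff ρ ρ.injective, map_eq_zero_iff ρ ρ.injective] at this
    linear_combination this
  have b5 : v.fst.re = α * v.fst.imI := by
    have : ρ (v.fst.re - α * v.fst.imI) = 0 := by
      rw [map_sub, map_mul, hρα]
      linear_combination -a5
    rw [map_eq_zero_iff ρ ρ.injective] at this
    linear_combination this
  have b6 : v.fst.imI = 0 := by
    refine (mul_eq_zero.1 (?_ : 2 * α * v.fst.imI = 0)).resolve_left (mul_ne_zero h2 h0)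
    linear_combination b1 - b5
  have b7 : v.fst.re = 0 := by rw [b5, b6, mul_zero]
  have c1 := congrArg (fun z => z.snd.re) hv.2
  simp only [tri, fst_mul, snd_mul, Nei.o1, Nei.o2, fst_star, snd_star, re_qmap,
      imI_qmap, imJ_qmap, imK_qmap, QuaternionAlgebra.re_star, QuaternionAlgebra.imI_star,
      QuaternionAlgebra.imJ_star, QuaternionAlgebra.imK_star, QuaternionAlgebra.re_add,
      QuaternionAlgebra.re_mul, QuaternionAlgebra.re_smul, QuaternionAlgebra.imI_smul,
      QuaternionAlgebra.imJ_smul, QuaternionAlgebra.imK_smul, smul_eq_mul, neg_zero,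
      zero_mul, mul_zero, add_zero, zero_add, sub_zero, map_neg, map_zero,
      map_mul, hρα, ha, QuaternionAlgebra.re_neg, QuaternionAlgebra.imI_neg,
      QuaternionAlgebra.imJ_neg, QuaternionAlgebra.imK_neg, QuaternionAlgebra.re_zero,
      fst_zero, snd_zero, b2, b3, b4, b6, b7] at c1
  have c2 : ρ v.snd.imK * ρ (ρ v.fst.imK) = ρ (ρ v.snd.imK) * ρ v.fst.imK := by
    have c3 : (2 * (up E b : Eˣ) * (α * α)) *
        (ρ v.snd.imK * ρ (ρ v.fst.imK) - ρ (ρ v.snd.imK) * ρ v.fst.imK) = 0 := by
      linear_combination c1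
    exact sub_eq_zero.1 ((mul_eq_zero.1 c3).resolve_left
      (mul_ne_zero (mul_ne_zero h2 hb) (mul_ne_zero h0 h0)))
  by_cases hx : v.fst.imK = 0
  · refine ⟨2 * α * v.snd.imI, 2 * α * v.snd.imK, ⟨0, ⟨0, 0, 1, 0⟩⟩, ?_, ?_, ?_, ?_, ?_⟩
    · simp [dot]
    · simp [dot, gi]
    · simp [dot, gl]
    · simp [dot, gl, gi]
    · rw [hep]
      rw [hx, mul_zero, neg_zero] at b2
      apply ext8 <;>
        simp only [ep, oup, fst_smul, snd_smul, fst_mul, snd_mul, re_qup, imI_qup, imJ_qup,
          imK_qup, fst_add, snd_add, fst_sub, snd_sub, fst_one, snd_one,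
          QuaternionAlgebra.re_smul, QuaternionAlgebra.imI_smul,
          QuaternionAlgebra.imJ_smul, QuaternionAlgebra.imK_smul, smul_eq_mul,
          QuaternionAlgebra.re_add, QuaternionAlgebra.imI_add, QuaternionAlgebra.imJ_add,
          QuaternionAlgebra.imK_add, QuaternionAlgebra.re_sub, QuaternionAlgebra.imI_sub,
          QuaternionAlgebra.imJ_sub, QuaternionAlgebra.imK_sub, QuaternionAlgebra.re_one,
          QuaternionAlgebra.imI_one, QuaternionAlgebra.imJ_one, QuaternionAlgebra.imK_one,
          QuaternionAlgebra.re_mul, QuaternionAlgebra.imI_mul, QuaternionAlgebra.imJ_mul,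
          QuaternionAlgebra.imK_mul, QuaternionAlgebra.re_star, QuaternionAlgebra.imI_star,
          QuaternionAlgebra.imJ_star, QuaternionAlgebra.imK_star,
          QuaternionAlgebra.re_zero, QuaternionAlgebra.imI_zero, QuaternionAlgebra.imJ_zero,
          QuaternionAlgebra.imK_zero, map_zero, map_one, ha, mul_zero,
          zero_mul, add_zero, zero_add, neg_zero, sub_zero, b2, b3, b4, b6, b7, hx] <;>
        field_simp <;> ring
  · have i1 : ι v.fst.imK = -ν * v.fst.imK := by
      have := congrArg (fun z => z.fst.imK) hI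
      change ι (-v.fst.imK) = ν * v.fst.imK at this
      rw [map_neg] at this
      linear_combination -this
    have i2 : ι v.snd.imK = -ν * v.snd.imK := by
      have := congrArg (fun z => z.snd.imK) hI
      change ι (-v.snd.imK) = ν * v.snd.imK at this
      rw [map_neg] at this
      linear_combination -this
    have hν : -ν ≠ 0 := by
      intro h
      rw [h, zero_mul, map_eq_zero_iff ι ι.injective] at i1
      exact hx i1
    obtain ⟨z0, z1, hz⟩ := hfix (v.snd.imK / v.fst.imK) (by
      apply ρ.injective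
      rw [map_div₀, map_div₀]
      have g1 : ρ v.fst.imK ≠ 0 := by
        rw [ne_eq, map_eq_zero_iff ρ ρ.injective]; exact hx
      have g2 : ρ (ρ v.fst.imK) ≠ 0 := by
        rw [ne_eq, map_eq_zero_iff ρ ρ.injective]; exact g1
      rw [div_eq_div_iff g2 g1]
      exact c2.symm) (by
      rw [map_div₀, i1, i2, mul_div_mul_left _ _ hν])
    have hz' : v.snd.imK = v.fst.imK * (algebraMap k E z0 + algebraMap k E z1 * α) := by
      rw [← hz]
      field_simp
    refine ⟨2 * α * v.snd.imI, -(2 * α * v.fst.imK), ⟨⟨0, 0, 1, 0⟩, ⟨0, 0, -z0, -z1⟩⟩,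
      ?_, ?_, ?_, ?_, ?_⟩
    · simp [dot]
    · simp [dot, gi]
    · simp [dot, gl]
    · simp [dot, gl, gi]
    · rw [hep]
      apply ext8 <;>
        simp only [ep, oup, fst_smul, snd_smul, fst_mul, snd_mul, re_qup, imI_qup, imJ_qup,
          imK_qup, fst_add, snd_add, fst_sub, snd_sub, fst_one, snd_one,
          QuaternionAlgebra.re_smul, QuaternionAlgebra.imI_smul,
          QuaternionAlgebra.imJ_smul, QuaternionAlgebra.imK_smul, smul_eq_mul,
          QuaternionAlgebra.re_add, QuaternionAlgebra.imI_add, QuaternionAlgebra.imJ_add,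
          QuaternionAlgebra.imK_add, QuaternionAlgebra.re_sub, QuaternionAlgebra.imI_sub,
          QuaternionAlgebra.imJ_sub, QuaternionAlgebra.imK_sub, QuaternionAlgebra.re_one,
          QuaternionAlgebra.imI_one, QuaternionAlgebra.imJ_one, QuaternionAlgebra.imK_one,
          QuaternionAlgebra.re_mul, QuaternionAlgebra.imI_mul, QuaternionAlgebra.imJ_mul,
          QuaternionAlgebra.imK_mul, QuaternionAlgebra.re_star, QuaternionAlgebra.imI_star,
          QuaternionAlgebra.imJ_star, QuaternionAlgebra.imK_star,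
          QuaternionAlgebra.re_zero, QuaternionAlgebra.imI_zero, QuaternionAlgebra.imJ_zero,
          QuaternionAlgebra.imK_zero, map_zero, map_one, map_neg, ha, mul_zero,
          zero_mul, add_zero, zero_add, neg_zero, sub_zero, b2, b3, b4, b6, b7, hz'] <;>
        field_simp <;> ring

end model

end Vale.Agent.P011.D4I
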