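import Vale.Agent.P011.D4I.H63.Kcx
import Vale.Agent.P011.D4I.H63.MixB
import Vale.Agent.P011.D4I.H553.Tran
import Vale.Agent.P011.D4I.H837.Tor
import Vale.Agent.P011.D4I.H862.Short

/-!
Block D4I: the tori of good types, the short subgroup and the mixed elements lie in the finite
residual.
-/

open NumberField

namespace Vale.Agent.P011.D4I.H63

open Vale.Agent.P011.MPQ Vale.Agent.P011.D4 Vale.Agent.P011.D4.Oct Vale.Agent.P011.E6
open Vale.Agent.P011.D4T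

theorem Mx.comm_diag {F : Type} [Field F] {a b : Fˣ} (x0 x1 y0 y1 : F) :
    (⟨x0, x1, 0, 0⟩ : Qt a b) * ⟨y0, y1, 0, 0⟩ = ⟨y0, y1, 0, 0⟩ * ⟨x0, x1, 0, 0⟩ := by
  ext
  · simp
    ring
  · simp
    ring
  · simp
  · simp

theorem Mx.zFI_short {k L E : Type} [Field k] [Field L] [Field E] [Algebra k L] [Algebra k E]
    [Algebra L E] {ρ : E ≃ₐ[k] E} {α : E} {a b c : kˣ}
    {q : Lˣ} {x : Qt (up L a) (q * up L b)} (hn : nrd x = 1) (v : Qt a b) (y : OctL E a b c) :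
    ρ (algebraMap L E (1 : L)) • zFI ρ α q ((1 : k) • 1 + (0 : k) • v) x 1 y =
      shortFun ρ (psiL α q x) y := by
  have e : algebraMap L E (nrd x) * ρ (ρ (algebraMap L E (nrd x))) /
      algebraMap k E ((1 : kˣ) : k) = 1 := by
    rw [hn]
    simp
  have e2 : (1 : k) • 1 + (0 : k) • v = 1 := by simp
  rw [KCx.zFI_eq, e, e2, qup_one, map_one, map_one, one_smul]
  unfold shortFun zFun
  rw [one_mul, one_smul]

variable {k L E : Type} [Field k] [NumberField k] [Field L] [NumberField L] [Field E]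
  [Algebra k L] [Algebra k E] [Algebra L E] [IsScalarTower k L E] [NeZero (2 : E)]
  {ρ σ ι : E ≃ₐ[k] E} {α : E} {a b c : kˣ} {q : Lˣ}
  (H : HyI ρ σ ι α a b c q)

include H

/-- F1b': the tori of the other good types. -/
theorem torD_mem (ho : HOdd a q) {x : SL1 (up L a) (q * up L b)} {D : k}
    {w : Qt (up L a) (q * up L b)}
    (hD : GoodD a b q D) (hns : ∀ e : E, e * e ≠ algebraMap k E D) (hw0 : w.re = 0)
    (hw : w * w = algebraMap k L D • 1) {s t : L}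
    (hx : ((x : (Qt (up L a) (q * up L b))ˣ) : Qt (up L a) (q * up L b)) = s • 1 + t • w)
    {g : OctL E a b c ≃ₗ[E] OctL E a b c}
    (hg : ∀ y : OctL E a b c, g y = shortFun ρ (psiL α q ((x : (Qt (up L a) (q * up L b))ˣ) :
      Qt (up L a) (q * up L b))) y) : g ∈ RsI ρ σ ι α a b c q := by
  obtain ⟨v, hv0, hv⟩ := hD.2.1
  obtain ⟨E1, O, _, _, _, _, _, _, _, _, _, _, _, _, _, _, _, _, ρ1, σ1, ι1, α1, ρ', σ', τ', ι',
    a1, b1, c1, q1, u, φ, X⟩ := exists_kcxI H hD.1 hD.2.2.2.2 hns hv0 hv hw0 hw hD.2.2.1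
  obtain ⟨g0, hg0, hg0'⟩ := exists_shortI (c := c) H x
  have hgg : g = g0 := LinearEquiv.ext fun y => by rw [hg, hg0']
  rw [hgg]
  have hn : nrd ((x : (Qt (up L a) (q * up L b))ˣ) : Qt (up L a) (q * up L b)) = 1 := x.2
  have hφ : ∀ z, kapI (φ z) = kapI z := fun z => kapI_eq ((X.kp z _).1 (isKapI_kapI z))
  refine tran_RsI φ hφ (z := ⟨g0, GTI_le_ATI hg0⟩) ?_
  have hz : ∀ y, (⟨g0, GTI_le_ATI hg0⟩ : ATI ρ σ ι α a b c q).1 y =
      ρ (algebraMap L E (1 : L)) •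
        zFI ρ α q ((1 : k) • 1 + (0 : k) • v) (s • 1 + t • w) 1 y := by
    intro y
    change g0 y = _
    rw [← hx, Mx.zFI_short hn, hg0']
  have h1 := X.zf _ 1 s t 1 0 1 hz
  obtain ⟨x1, hx1⟩ : ∃ x1 : Qt (up L a1) (q1 * up L b1), x1 = s • 1 + t • ⟨0, 1, 0, 0⟩ :=
    ⟨_, rfl⟩
  have hn1 : nrd x1 = 1 := by
    have e : algebraMap k L D = ((up L a1 : Lˣ) : L) := by
      rw [← X.ha1]
      rfl
    rw [hx1, D4T.KCx.nrd_i, ← hn, hx, D4T.KCx.nrd_tor hw0 hw, e]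
  have e1 : x1 * star x1 = 1 := by rw [mul_star_self', hn1, one_smul]
  have e2 : star x1 * x1 = 1 := by rw [star_mul_self', hn1, one_smul]
  refine tor_mem X.H1 (X.ho ho) (x := ⟨⟨x1, star x1, e1, e2⟩, hn1⟩) ?_ ?_ fun y => ?_
  · change x1.imJ = 0
    rw [hx1]
    change s * 0 + t * 0 = 0
    ring
  · change x1.imK = 0
    rw [hx1]
    change s * 0 + t * 0 = 0
    ring
  · change _ = shortFun ρ1 (psiL α1 q1 x1) y
    rw [h1, ← hx1, Mx.zFI_short hn1]

/-- **F1c.** -/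
theorem short_mem (ho : HOdd a q) {x : SL1 (up L a) (q * up L b)}
    {g : OctL E a b c ≃ₗ[E] OctL E a b c}
    (hg : ∀ y : OctL E a b c, g y = shortFun ρ (psiL α q ((x : (Qt (up L a) (q * up L b))ˣ) :
      Qt (up L a) (q * up L b))) y) : g ∈ RsI ρ σ ι α a b c q :=
  short_mem_of H ho
    (fun hD hns hw0 hw _ _ hx _ hg => torD_mem H ho hD hns hw0 hw hx hg) hg

/-- The middle element. -/
theorem mid_mem (s : kˣ) (u : k) (D : kˣ) (w : Qt a b) (p : Qt (up L a) (q * up L b))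
    (hDu : (D : k) = u ^ 2 - 4 * s) (hD : GoodD a b q (D : k))
    (hns : ∀ e : E, e * e ≠ algebraMap k E (D : k)) (hw0 : w.re = 0)
    (hw : w * w = (D : k) • 1) (hp0 : p.re = 0) (hp : p * p = algebraMap k L (D : k) • 1)
    (g : OctL E a b c ≃ₗ[E] OctL E a b c) (hg : ∀ y, g y = (algebraMap k E (s : k))⁻¹ •
      zFI ρ α q ((1 / 2 : k) • (u • 1 + w)) ((1 / 2 : L) • (algebraMap k L u • 1 + p))
        (s ^ 2) y) : g ∈ RsI ρ σ ι α a b c q := by
  obtain ⟨E1, O, _, _, _, _, _, _, _, _, _, _, _, _, _, _, _, _, ρ1, σ1, ι1, α1, ρ', σ', τ', ι',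
    a1, b1, c1, q1, u1, φ, X⟩ := exists_kcxI H hD.1 hD.2.2.2.2 hns hw0 hw hp0 hp hD.2.2.1
  have hs0 : (s : k) ≠ 0 := s.ne_zero
  have hsL : algebraMap k L (s : k) ≠ 0 := (map_ne_zero _).2 hs0
  have hDL : algebraMap k L (D : k) = algebraMap k L u ^ 2 - 4 * algebraMap k L (s : k) := by
    rw [hDu, map_sub, map_pow, map_mul, map_ofNat]
  have n0 : nrd ((1 / 2 : k) • (u • 1 + w)) = (s : k) := nrd_half hw0 hw hDu
  have n1 : nrd ((1 / 2 : L) • (algebraMap k L u • 1 + p)) = algebraMap k L (s : k) :=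
    nrd_half hp0 hp hDL
  obtain ⟨z0, -, hz0κ, hz0⟩ := exists_zI (c := c) H ((1 / 2 : k) • (u • 1 + w))
    ((1 / 2 : L) • (algebraMap k L u • 1 + p)) (s ^ 2) (by
      rw [n0, n1, ← IsScalarTower.algebraMap_apply, ρ.commutes, ρ.commutes,
        Units.val_pow_eq_pow_val, map_pow, map_pow]
      ring)
  set l : Lˣ := up L s⁻¹ with hl
  have hlv : (l : L) = (algebraMap k L (s : k))⁻¹ := by
    change algebraMap k L ((s⁻¹ : kˣ) : k) = _
    rw [Units.val_inv_eq_inv_val, map_inv₀]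
  have hlE0 : algebraMap L E (l : L) = (algebraMap k E (s : k))⁻¹ := by
    rw [hlv, map_inv₀, ← IsScalarTower.algebraMap_apply]
  have hlE : ρ (algebraMap L E (l : L)) = (algebraMap k E (s : k))⁻¹ := by
    rw [hlE0, map_inv₀, ρ.commutes]
  have hφ : ∀ z, kapI (φ z) = kapI z := fun z => kapI_eq ((X.kp z _).1 (isKapI_kapI z))
  have hgz : g = (H.scal l * z0 : ATI ρ σ ι α a b c q).1 := by
    apply LinearEquiv.ext
    intro y
    rw [hg]
    change _ = (H.scal l).1 (z0.1 y)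
    rw [H.scal_apply, hz0, hlE]
  -- the multiplier
  have hk0 : kapI z0 = (up L s)⁻¹ := by
    apply kapI_eq
    apply hz0κ
    rw [n1]
    change algebraMap k L (s : k) * (((up L s)⁻¹ : Lˣ) : L) = 1
    rw [Units.val_inv_eq_inv_val]
    exact mul_inv_cancel₀ hsL
  have hk1 : kapI (H.scal l) = up L s := by
    rw [kapI_scal H (n := (s⁻¹) ^ 3) (by
      rw [hlE0, map_inv₀, map_inv₀, ρ.commutes, ρ.commutes, Units.val_pow_eq_pow_val, map_pow,
        Units.val_inv_eq_inv_val, map_inv₀]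
      ring)]
    apply Units.ext
    change (l : L) ^ 2 * (((up L (s⁻¹ ^ 3))⁻¹ : Lˣ) : L) = algebraMap k L (s : k)
    rw [Units.val_inv_eq_inv_val, hlv]
    change _ * (algebraMap k L ((s⁻¹ ^ 3 : kˣ) : k))⁻¹ = _
    rw [Units.val_pow_eq_pow_val, Units.val_inv_eq_inv_val, map_pow, map_inv₀]
    field_simp
  have hk : kapI (H.scal l * z0 : ATI ρ σ ι α a b c q) = 1 := by
    rw [kapI_mul, hk0, hk1, mul_inv_cancel]
  rw [hgz]
  refine tran_RsI φ hφ ?_
  -- the formula in the new model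
  have hz : ∀ y, (H.scal l * z0 : ATI ρ σ ι α a b c q).1 y = ρ (algebraMap L E (l : L)) •
      zFI ρ α q ((1 / 2 * u : k) • 1 + (1 / 2 : k) • w)
        ((1 / 2 * algebraMap k L u : L) • 1 + (1 / 2 : L) • p) (s ^ 2) y := by
    intro y
    have e1 : (1 / 2 : k) • (u • 1 + w) = (1 / 2 * u : k) • 1 + (1 / 2 : k) • w := by
      rw [smul_add, smul_smul]
    have e2 : (1 / 2 : L) • (algebraMap k L u • 1 + p) =
        (1 / 2 * algebraMap k L u : L) • 1 + (1 / 2 : L) • p := by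
      rw [smul_add, smul_smul]
    rw [← e1, ← e2, ← hz0, ← H.scal_apply]
    rfl
  have h1 := X.zf _ _ _ _ _ _ _ hz
  refine autI_mem X.H1 (mem_GTI_of_kapI_one (by rw [hφ, hk])) ?_
  rw [h1, KCx.zFI_eq]
  -- the quaternion
  obtain ⟨Y, hY⟩ : ∃ Y : Qt (up E1 a1) (up E1 b1), Y = psiL α1 q1
    ((1 / 2 * algebraMap k L u : L) • 1 + (1 / 2 : L) • ⟨0, 1, 0, 0⟩) := ⟨_, rfl⟩
  rw [← hY]
  have hYn : nrd Y = algebraMap k E1 (s : k) := by
    have e : ((up L a1 : Lˣ) : L) = algebraMap k L (u ^ 2 - 4 * s) := by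
      rw [← hDu, ← X.ha1]
      rfl
    rw [hY, X.H1.nrd_psiL, D4T.KCx.nrd_i, e, IsScalarTower.algebraMap_apply k L E1]
    congr 1
    rw [map_sub, map_pow, map_mul, map_ofNat]
    ring
  have hYe : Y = (1 / 2 * algebraMap k E1 u : E1) • 1 + (1 / 2 : E1) • ⟨0, 1, 0, 0⟩ := by
    rw [hY, D4T.KCx.psiL_add, D4T.KCx.psiL_smul, D4T.KCx.psiL_smul, D4T.KCx.psiL_one,
      D4T.KCx.psiL_i, map_mul, map_div₀, map_one, map_ofNat, ← IsScalarTower.algebraMap_apply]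
  have hY1 : Y = ⟨1 / 2 * algebraMap k E1 u, 1 / 2, 0, 0⟩ := by
    rw [hYe]
    apply QuaternionAlgebra.ext
    · change 1 / 2 * algebraMap k E1 u * 1 + 1 / 2 * 0 = 1 / 2 * algebraMap k E1 u
      ring
    · change 1 / 2 * algebraMap k E1 u * 0 + 1 / 2 * 1 = (1 / 2 : E1)
      ring
    · change 1 / 2 * algebraMap k E1 u * 0 + 1 / 2 * 0 = (0 : E1)
      ring
    · change 1 / 2 * algebraMap k E1 u * 0 + 1 / 2 * 0 = (0 : E1)
      ring
  have hYρ : qmap ρ1 Y = Y := by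
    rw [hY1]
    apply QuaternionAlgebra.ext
    · change ρ1 (1 / 2 * algebraMap k E1 u) = 1 / 2 * algebraMap k E1 u
      rw [map_mul, map_div₀, map_one, map_ofNat, ρ1.commutes]
    · change ρ1 (1 / 2) = 1 / 2
      rw [map_div₀, map_one, map_ofNat]
    · exact map_zero _
    · exact map_zero _
  have hcomm : Y * (⟨1 / 2, 1 / (2 * α1), 0, 0⟩ : Qt (up E1 a1) (up E1 b1)) =
      ⟨1 / 2, 1 / (2 * α1), 0, 0⟩ * Y := by
    rw [hY1]
    exact Mx.comm_diag _ _ _ _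
  have hlE1 : ρ1 (algebraMap L E1 (l : L)) * nrd Y = 1 := by
    rw [hYn, hlv, map_inv₀, map_inv₀, ← IsScalarTower.algebraMap_apply, ρ1.commutes]
    exact inv_mul_cancel₀ ((map_ne_zero _).2 hs0)
  apply Oct.ext
  · rw [fst_smul, fst_zFun, hYρ, hYρ]
    change ρ1 (algebraMap L E1 (l : L)) • (Y * ⟨1 / 2, 1 / (2 * α1), 0, 0⟩ * star Y) =
      ⟨1 / 2, 1 / (2 * α1), 0, 0⟩
    rw [hcomm, mul_assoc, mul_star_self', mul_smul_comm, mul_one, smul_smul, hlE1, one_smul]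
  · rw [snd_smul, snd_zFun]
    change _ • (_ • (_ * (0 : Qt (up E1 a1) (up E1 b1)) * _)) = 0
    rw [mul_zero, zero_mul, smul_zero, smul_zero]

/-- **F1d**: the elements with `nrd x₀ = nrd x ∈ k*` (normalised by `κ = 1`). -/
theorem mix_mem (ho : HOdd a q) {x0 : Qt a b} {x : Qt (up L a) (q * up L b)} {s : kˣ}
    (h0 : nrd x0 = s)
    (h1 : nrd x = algebraMap k L (s : k)) {g : OctL E a b c ≃ₗ[E] OctL E a b c}
    (hg : ∀ y : OctL E a b c, g y =
      (algebraMap k E (s : k))⁻¹ • zFI ρ α q x0 x (s ^ 2) y) : g ∈ RsI ρ σ ι α a b c q :=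
  mix_mem_of H ho (fun _ _ hg => short_mem H ho hg)
    (fun s u D w p hDu hD _ hns hw0 hw hp0 hp g hg =>
      mid_mem H s u D w p hDu hD hns hw0 hw hp0 hp g hg) h0 h1 hg

end Vale.Agent.P011.D4I.H63
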